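import Vale.Agent.H99.NS.UniqueAux

/-!
Periodicity of partial derivatives and uniform bounds for continuous space-periodic functions on
a compact time interval.
-/

namespace Vale.Agent.H99

open Vale.Agent.H30 MeasureTheory Set

/-- Components of a periodic vector field are periodic. -/
theorem Per3.comp_apply {u : R3 → R3} (h : Per3 u) (i : Fin 3) : Per3 (fun y => u y i) := by
  intro x k
  show u (x + fun i => (k i : ℝ)) i = u x i
  rw [h x k]

/-- Partial derivatives of a periodic function are periodic. -/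
theorem Per3.pd {φ : R3 → ℝ} (h : Per3 φ) (j : Fin 3) : Per3 (pd j φ) := by
  intro x k
  unfold Vale.Agent.H30.pd
  have hfun : (fun y : R3 => φ (y + fun i => (k i : ℝ))) = φ := by
    funext y
    exact h y k
  have h1 : fderiv ℝ (fun y : R3 => φ (y + fun i => (k i : ℝ))) x
      = fderiv ℝ φ (x + fun i => (k i : ℝ)) := fderiv_comp_add_right _
  rw [← h1, hfun]

/-- A function continuous on `[0, T] × R3` and periodic in space is uniformly bounded on
`[0, T] × R3`. -/
theorem exists_bound_of_continuousOn_periodic {T : ℝ} (G : ℝ × R3 → ℝ)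
    (hG : ContinuousOn G (Set.Icc (0 : ℝ) T ×ˢ (Set.univ : Set R3)))
    (hper : ∀ t ∈ Set.Icc (0 : ℝ) T, Per3 (fun x => G (t, x))) :
    ∃ C : ℝ, 0 ≤ C ∧ ∀ t ∈ Set.Icc (0 : ℝ) T, ∀ x : R3, |G (t, x)| ≤ C := by
  have hcomp : IsCompact (Set.Icc (0 : ℝ) T ×ˢ Set.Icc (0 : R3) 1) :=
    isCompact_Icc.prod isCompact_Icc
  have hsub : Set.Icc (0 : ℝ) T ×ˢ Set.Icc (0 : R3) 1
      ⊆ Set.Icc (0 : ℝ) T ×ˢ (Set.univ : Set R3) :=
    Set.prod_mono (le_refl _) (Set.subset_univ _)
  obtain ⟨C, hC⟩ := hcomp.exists_bound_of_continuousOn (hG.mono hsub)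
  refine ⟨max C 0, le_max_right _ _, ?_⟩
  intro t ht x
  obtain ⟨y, hy, k, rfl⟩ := exists_cube_translate x
  have h1 : G (t, y + fun i => (k i : ℝ)) = G (t, y) := hper t ht y k
  rw [h1]
  have h2 := hC (t, y) ⟨ht, hy⟩
  rw [Real.norm_eq_abs] at h2
  exact le_trans h2 (le_max_left _ _)

end Vale.Agent.H99
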