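import Vale.Agent.H99.NS.UniqueAux

/-!
The time-integration step of the energy method: a field on `[0, T] × R3` that starts from zero
and whose energy production is bounded by a multiple of its energy has zero energy on `[0, T]`.
-/

namespace Vale.Agent.H99

open Vale.Agent.H30 MeasureTheory Set

/-- The projection of the real line onto `[0, T]`. -/
noncomputable def clampT (T t : ℝ) : ℝ := max 0 (min t T)

theorem clampT_mem {T : ℝ} (hT : 0 ≤ T) (t : ℝ) : clampT T t ∈ Set.Icc (0 : ℝ) T := by
  constructor
  · exact le_max_left _ _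
  · exact max_le hT (min_le_right _ _)

theorem clampT_of_mem {T t : ℝ} (ht : t ∈ Set.Icc (0 : ℝ) T) : clampT T t = t := by
  unfold clampT
  rw [min_eq_left ht.2, max_eq_right ht.1]

theorem continuous_clampT (T : ℝ) : Continuous (clampT T) := by
  unfold clampT
  fun_prop

/-- Energy Gronwall lemma. Let `W` be continuous on `[0, T] × R3` with continuous time derivative
`D` there, `W 0 = 0`, and suppose that at each time of `[0, T]` the integral over the unit cube
of `W · D` is at most `K` times the integral of `|W|^2`. Then the integral of `|W|^2` over the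
unit cube vanishes at each time of `[0, T]`. -/
theorem energy_gronwall {T : ℝ} (hT : 0 < T) (K : ℝ) (W D : ℝ → R3 → R3)
    (hW : ContinuousOn (fun z : ℝ × R3 => W z.1 z.2) (Set.Icc (0 : ℝ) T ×ˢ (Set.univ : Set R3)))
    (hD : ContinuousOn (fun z : ℝ × R3 => D z.1 z.2) (Set.Icc (0 : ℝ) T ×ˢ (Set.univ : Set R3)))
    (hderiv : ∀ t ∈ Set.Icc (0 : ℝ) T, ∀ x : R3,
      HasDerivWithinAt (fun s => W s x) (D t x) (Set.Icc (0 : ℝ) T) t)
    (h0 : ∀ x : R3, W 0 x = 0)
    (hineq : ∀ t ∈ Set.Icc (0 : ℝ) T,
      ∫ x in Set.Icc (0 : R3) 1, ∑ i : Fin 3, W t x i * D t x i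
        ≤ K * ∫ x in Set.Icc (0 : R3) 1, ∑ i : Fin 3, (W t x i) ^ 2) :
    ∀ t ∈ Set.Icc (0 : ℝ) T, ∫ x in Set.Icc (0 : R3) 1, ∑ i : Fin 3, (W t x i) ^ 2 = 0 := by
  have hcl : Continuous (fun z : ℝ × R3 => (clampT T z.1, z.2)) :=
    ((continuous_clampT T).comp continuous_fst).prodMk continuous_snd
  have hclmem : ∀ z : ℝ × R3,
      (clampT T z.1, z.2) ∈ Set.Icc (0 : ℝ) T ×ˢ (Set.univ : Set R3) :=
    fun z => ⟨clampT_mem hT.le z.1, Set.mem_univ _⟩
  have hWc : Continuous (fun z : ℝ × R3 => W (clampT T z.1) z.2) :=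
    hW.comp_continuous hcl hclmem
  have hDc : Continuous (fun z : ℝ × R3 => D (clampT T z.1) z.2) :=
    hD.comp_continuous hcl hclmem
  set ew : ℝ → R3 → ℝ := fun t x => ∑ i : Fin 3, (W (clampT T t) x i) ^ 2 with hew
  set dd : ℝ → R3 → ℝ :=
    fun t x => 2 * ∑ i : Fin 3, W (clampT T t) x i * D (clampT T t) x i with hdd
  have hewc : Continuous (Function.uncurry ew) := by
    have : Function.uncurry ew
        = fun z : ℝ × R3 => ∑ i : Fin 3, (W (clampT T z.1) z.2 i) ^ 2 := by
      funext z
      rfl
    rw [this]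
    apply continuous_finsetSum
    intro i _
    exact ((continuous_apply i).comp hWc).pow 2
  have hddc : Continuous (Function.uncurry dd) := by
    have : Function.uncurry dd = fun z : ℝ × R3 =>
        2 * ∑ i : Fin 3, W (clampT T z.1) z.2 i * D (clampT T z.1) z.2 i := by
      funext z
      rfl
    rw [this]
    apply continuous_const.mul
    apply continuous_finsetSum
    intro i _
    exact ((continuous_apply i).comp hWc).mul ((continuous_apply i).comp hDc)
  set E : ℝ → ℝ := fun t => ∫ x in Set.Icc (0 : R3) 1, ew t x with hE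
  set A : ℝ → ℝ := fun t => ∫ x in Set.Icc (0 : R3) 1, dd t x with hA
  have hEc : Continuous E := continuous_parametric_integral_of_continuous hewc isCompact_Icc
  have hAc : Continuous A := continuous_parametric_integral_of_continuous hddc isCompact_Icc
  have hE0 : ∀ t, 0 ≤ E t := fun t =>
    integral_nonneg (fun x => Finset.sum_nonneg (fun i _ => sq_nonneg _))
  have hslice : ∀ x : R3, Continuous (fun s : ℝ => (s, x)) := fun x =>
    continuous_id.prodMk continuous_const
  -- pointwise fundamental theorem of calculus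
  have hftc : ∀ t ∈ Set.Icc (0 : ℝ) T, ∀ x : R3, ew t x = ∫ s in (0 : ℝ)..t, dd s x := by
    intro t ht x
    have hcont : ContinuousOn (fun s => ew s x) (Set.Icc 0 t) :=
      (hewc.comp (hslice x)).continuousOn
    have hder : ∀ s ∈ Set.Ioo (0 : ℝ) t, HasDerivAt (fun s => ew s x) (dd s x) s := by
      intro s hs
      have hsT : s ∈ Set.Icc (0 : ℝ) T := ⟨hs.1.le, hs.2.le.trans ht.2⟩
      have hnhds : Set.Icc (0 : ℝ) T ∈ nhds s :=
        Icc_mem_nhds hs.1 (lt_of_lt_of_le hs.2 ht.2)
      have h1 : HasDerivAt (fun r => W r x) (D s x) s := (hderiv s hsT x).hasDerivAt hnhds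
      have h2 : ∀ i : Fin 3, HasDerivAt (fun r => W r x i) (D s x i) s :=
        fun i => (hasDerivAt_pi.1 h1) i
      have h3 : HasDerivAt (fun r => ∑ i : Fin 3, (W r x i) ^ 2)
          (∑ i : Fin 3, 2 * W s x i * D s x i) s := by
        apply HasDerivAt.fun_sum
        intro i _
        have := (h2 i).fun_pow 2
        simpa using this
      have heq : (fun r => ew r x) =ᶠ[nhds s] (fun r => ∑ i : Fin 3, (W r x i) ^ 2) := by
        filter_upwards [hnhds] with r hr
        simp only [hew]
        rw [clampT_of_mem hr]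
      have hval : dd s x = ∑ i : Fin 3, 2 * W s x i * D s x i := by
        simp only [hdd]
        rw [clampT_of_mem hsT, Finset.mul_sum]
        apply Finset.sum_congr rfl
        intro i _
        ring
      rw [hval]
      exact h3.congr_of_eventuallyEq heq
    have hint : IntervalIntegrable (fun s => dd s x) volume 0 t :=
      (hddc.comp (hslice x)).intervalIntegrable _ _
    have hkey := intervalIntegral.integral_eq_sub_of_hasDerivAt_of_le ht.1 hcont hder hint
    rw [hkey]
    have hzero : ew 0 x = 0 := by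
      simp only [hew]
      rw [clampT_of_mem ⟨le_refl _, hT.le⟩]
      simp [h0 x]
    rw [hzero, sub_zero]
  -- the energy is the time integral of its production
  have hEA : ∀ t ∈ Set.Icc (0 : ℝ) T, E t = ∫ s in (0 : ℝ)..t, A s := by
    intro t ht
    have h1 : E t = ∫ x in Set.Icc (0 : R3) 1, ∫ s in (0 : ℝ)..t, dd s x := by
      simp only [hE]
      apply setIntegral_congr_fun measurableSet_Icc
      intro x _
      exact hftc t ht x
    rw [h1]
    symm
    apply intervalIntegral_integral_swap
    rw [Measure.prod_restrict]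
    have hcompact : IsCompact (Set.Icc (0 : ℝ) t ×ˢ Set.Icc (0 : R3) 1) :=
      isCompact_Icc.prod isCompact_Icc
    have hio : IntegrableOn (Function.uncurry dd) (Set.Icc (0 : ℝ) t ×ˢ Set.Icc (0 : R3) 1)
        (volume.prod volume) := hddc.continuousOn.integrableOn_compact hcompact
    refine hio.mono_set ?_
    rw [Set.uIoc_of_le ht.1]
    exact Set.prod_mono Set.Ioc_subset_Icc_self (le_refl _)
  -- production bound
  have hAE : ∀ s ∈ Set.Icc (0 : ℝ) T, A s ≤ 2 * K * E s := by
    intro s hs
    simp only [hA, hE, hdd, hew]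
    rw [clampT_of_mem hs, integral_const_mul]
    have := hineq s hs
    linarith
  set G : ℝ → ℝ := fun t => ∫ s in (0 : ℝ)..t, E s with hG
  have hGd : ∀ t, HasDerivAt G (E t) t := fun t =>
    (hEc.integral_hasStrictDerivAt 0 t).hasDerivAt
  have hG0 : G 0 = 0 := by
    simp [hG]
  have hGnn : ∀ t, 0 ≤ t → 0 ≤ G t := fun t ht =>
    intervalIntegral.integral_nonneg ht (fun u _ => hE0 u)
  have hEG : ∀ t ∈ Set.Icc (0 : ℝ) T, E t ≤ 2 * K * G t := by
    intro t ht
    rw [hEA t ht]
    have h2 : (2 * K) * G t = ∫ s in (0 : ℝ)..t, 2 * K * E s := by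
      simp only [hG]
      rw [intervalIntegral.integral_const_mul]
    rw [h2]
    apply intervalIntegral.integral_mono_on ht.1 (hAc.intervalIntegrable _ _)
      ((continuous_const.mul hEc).intervalIntegrable _ _)
    intro s hs
    exact hAE s ⟨hs.1, hs.2.trans ht.2⟩
  have hGzero : ∀ t ∈ Set.Icc (0 : ℝ) T, G t = 0 := by
    apply eq_zero_of_abs_deriv_le_mul_abs_self_of_eq_zero_right (f' := E) (K := 2 * K)
    · exact fun t _ => (hGd t).continuousAt.continuousWithinAt
    · intro t _
      exact (hGd t).hasDerivWithinAt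
    · exact hG0
    · intro t ht
      have htI : t ∈ Set.Icc (0 : ℝ) T := ⟨ht.1, ht.2.le⟩
      rw [Real.norm_of_nonneg (hE0 t), Real.norm_of_nonneg (hGnn t ht.1)]
      exact hEG t htI
  intro t ht
  have h1 : E t ≤ 0 := by
    have := hEG t ht
    rw [hGzero t ht] at this
    simpa using this
  have h2 : E t = 0 := le_antisymm h1 (hE0 t)
  simp only [hE, hew] at h2
  rw [clampT_of_mem ht] at h2
  exact h2

end Vale.Agent.H99
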