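import Vale.Agent.H99.NS.DivPeriodic
import Vale.Agent.H99.NS.Bounds

/-!
Spatial integral identities on the torus used in the energy method: the transport term and the
pressure term integrate to zero against divergence-free fields, and the Laplacian term is
nonpositive.
-/

namespace Vale.Agent.H99

open Vale.Agent.H30 MeasureTheory Set

/-- Product rule for partial derivatives. -/
theorem pd_mul (j : Fin 3) (a b : R3 → ℝ) (x : R3) (ha : DifferentiableAt ℝ a x)
    (hb : DifferentiableAt ℝ b x) :
    pd j (fun y => a y * b y) x = a x * pd j b x + b x * pd j a x := by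
  unfold pd
  rw [fderiv_fun_mul ha hb]
  simp [smul_eq_mul]

/-- Partial derivatives of a differentiable function with continuous derivative are continuous;
here for a `C^1` function. -/
theorem continuous_pd_of_contDiff (j : Fin 3) (φ : R3 → ℝ) (hφ : ContDiff ℝ 1 φ) :
    Continuous (pd j φ) := by
  have h1 : Continuous (fderiv ℝ φ) := hφ.continuous_fderiv one_ne_zero
  have : pd j φ = fun x => fderiv ℝ φ x (Pi.single j 1) := rfl
  rw [this]
  exact h1.clm_apply continuous_const

/-- Partial derivatives of a `C^2` function are `C^1`. -/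
theorem contDiff_pd_of_contDiff (j : Fin 3) (φ : R3 → ℝ) (hφ : ContDiff ℝ 2 φ) :
    ContDiff ℝ 1 (pd j φ) := by
  have h1 : ContDiff ℝ 1 (fderiv ℝ φ) := by
    apply ContDiff.fderiv_right (m := 1) hφ
    norm_num
  have : pd j φ = fun x => fderiv ℝ φ x (Pi.single j 1) := rfl
  rw [this]
  exact h1.clm_apply contDiff_const

/-- The transport term integrates to zero: for a differentiable periodic divergence-free field
`v` and a periodic `C^1` function `φ`, the integral of `(v · ∇φ) φ` over the unit cube is zero. -/
theorem integral_transport_zero (v : R3 → R3) (φ : R3 → ℝ) (hv : Differentiable ℝ v)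
    (hvper : Per3 v) (hdiv : ∀ x, ∑ j : Fin 3, pd j (fun y => v y j) x = 0)
    (hφ : Differentiable ℝ φ) (hφper : Per3 φ) (hφc : ∀ j : Fin 3, Continuous (pd j φ)) :
    ∫ x in Set.Icc (0 : R3) 1, (∑ j : Fin 3, v x j * pd j φ x) * φ x = 0 := by
  have hvj : ∀ j : Fin 3, Differentiable ℝ (fun y => v y j) := fun j => differentiable_pi.1 hv j
  have hvc : Continuous v := hv.continuous
  have hφcont : Continuous φ := hφ.continuous
  set F : R3 → R3 := fun x j => ((1 / 2 : ℝ) * (φ x * φ x)) * v x j with hFdef
  have hsq : Differentiable ℝ (fun y => (1 / 2 : ℝ) * (φ y * φ y)) := (hφ.mul hφ).const_mul _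
  have hF : Differentiable ℝ F := by
    apply differentiable_pi.2
    intro j
    exact hsq.mul (hvj j)
  have hFper : Per3 F := by
    intro x k
    funext j
    simp only [hFdef]
    rw [hφper x k, hvper x k]
  have hpdsq : ∀ (j : Fin 3) (x : R3),
      pd j (fun y => (1 / 2 : ℝ) * (φ y * φ y)) x = φ x * pd j φ x := by
    intro j x
    have h2 : pd j (fun y => (1 / 2 : ℝ) * (φ y * φ y)) x
        = (1 / 2 : ℝ) * pd j (fun y => φ y * φ y) x := by
      unfold pd
      have hmul : DifferentiableAt ℝ (fun y => φ y * φ y) x := (hφ x).mul (hφ x)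
      rw [fderiv_const_mul (a := fun y => φ y * φ y) hmul (1 / 2 : ℝ)]
      simp [smul_eq_mul]
    rw [h2, pd_mul j φ φ x (hφ x) (hφ x)]
    ring
  have hpoint : ∀ x, ∑ j : Fin 3, pd j (fun y => F y j) x
      = (∑ j : Fin 3, v x j * pd j φ x) * φ x := by
    intro x
    have hterm : ∀ j : Fin 3, pd j (fun y => F y j) x
        = (v x j * pd j φ x) * φ x
          + ((1 / 2 : ℝ) * (φ x * φ x)) * pd j (fun y => v y j) x := by
      intro j
      have : (fun y => F y j) = fun y => ((1 / 2 : ℝ) * (φ y * φ y)) * v y j := rfl
      rw [this, pd_mul j (fun y => (1 / 2 : ℝ) * (φ y * φ y)) (fun y => v y j) x (hsq x)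
        (hvj j x), hpdsq j x]
      ring
    simp only [hterm]
    rw [Finset.sum_add_distrib, ← Finset.mul_sum, hdiv x, mul_zero, add_zero, Finset.sum_mul]
  have hc : Continuous (fun x => ∑ j : Fin 3, pd j (fun y => F y j) x) := by
    have : (fun x => ∑ j : Fin 3, pd j (fun y => F y j) x)
        = fun x => (∑ j : Fin 3, v x j * pd j φ x) * φ x := funext hpoint
    rw [this]
    apply Continuous.mul _ hφcont
    apply continuous_finsetSum
    intro j _
    exact ((continuous_apply j).comp hvc).mul (hφc j)
  have key := integral_div_periodic F hF hFper hc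
  simp only [hpoint] at key
  exact key

/-- The pressure term integrates to zero against a divergence-free field. -/
theorem integral_grad_mul_divfree (π : R3 → ℝ) (w : R3 → R3) (hπ : Differentiable ℝ π)
    (hπper : Per3 π) (hπc : ∀ i : Fin 3, Continuous (pd i π)) (hw : Differentiable ℝ w)
    (hwper : Per3 w) (hdiv : ∀ x, ∑ j : Fin 3, pd j (fun y => w y j) x = 0) :
    ∫ x in Set.Icc (0 : R3) 1, ∑ i : Fin 3, pd i π x * w x i = 0 := by
  have hwj : ∀ j : Fin 3, Differentiable ℝ (fun y => w y j) := fun j => differentiable_pi.1 hw j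
  set F : R3 → R3 := fun x j => π x * w x j with hFdef
  have hF : Differentiable ℝ F := by
    apply differentiable_pi.2
    intro j
    exact hπ.mul (hwj j)
  have hFper : Per3 F := by
    intro x k
    funext j
    simp only [hFdef]
    rw [hπper x k, hwper x k]
  have hpoint : ∀ x, ∑ j : Fin 3, pd j (fun y => F y j) x = ∑ i : Fin 3, pd i π x * w x i := by
    intro x
    have hterm : ∀ j : Fin 3, pd j (fun y => F y j) x
        = pd j π x * w x j + π x * pd j (fun y => w y j) x := by
      intro j
      have : (fun y => F y j) = fun y => π y * w y j := rfl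
      rw [this, pd_mul j π (fun y => w y j) x (hπ x) (hwj j x)]
      ring
    simp only [hterm]
    rw [Finset.sum_add_distrib, ← Finset.mul_sum, hdiv x, mul_zero, add_zero]
  have hc : Continuous (fun x => ∑ j : Fin 3, pd j (fun y => F y j) x) := by
    have : (fun x => ∑ j : Fin 3, pd j (fun y => F y j) x)
        = fun x => ∑ i : Fin 3, pd i π x * w x i := funext hpoint
    rw [this]
    apply continuous_finsetSum
    intro i _
    exact (hπc i).mul ((continuous_apply i).comp hw.continuous)
  have key := integral_div_periodic F hF hFper hc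
  simp only [hpoint] at key
  exact key

/-- Green identity on the torus: the integral of `(Δφ) φ` over the unit cube equals minus the
integral of `|∇φ|^2`, for periodic `C^2` functions. -/
theorem integral_laplacian_mul (φ : R3 → ℝ) (hφ : ContDiff ℝ 2 φ) (hper : Per3 φ) :
    ∫ x in Set.Icc (0 : R3) 1, (∑ j : Fin 3, pd j (pd j φ) x) * φ x
      = - ∫ x in Set.Icc (0 : R3) 1, ∑ j : Fin 3, (pd j φ x) ^ 2 := by
  have hφd : Differentiable ℝ φ := hφ.differentiable two_ne_zero
  have hpd1 : ∀ j : Fin 3, ContDiff ℝ 1 (pd j φ) := fun j => contDiff_pd_of_contDiff j φ hφ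
  have hpdd : ∀ j : Fin 3, Differentiable ℝ (pd j φ) := fun j =>
    (hpd1 j).differentiable one_ne_zero
  have hpdc : ∀ j : Fin 3, Continuous (pd j φ) := fun j => (hpd1 j).continuous
  have hpd2c : ∀ j : Fin 3, Continuous (pd j (pd j φ)) := fun j =>
    continuous_pd_of_contDiff j (pd j φ) (hpd1 j)
  set F : R3 → R3 := fun x j => φ x * pd j φ x with hFdef
  have hF : Differentiable ℝ F := by
    apply differentiable_pi.2
    intro j
    exact hφd.mul (hpdd j)
  have hFper : Per3 F := by
    intro x k
    funext j
    simp only [hFdef]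
    rw [hper x k, Per3.pd hper j x k]
  have hpoint : ∀ x, ∑ j : Fin 3, pd j (fun y => F y j) x
      = (∑ j : Fin 3, pd j (pd j φ) x) * φ x + ∑ j : Fin 3, (pd j φ x) ^ 2 := by
    intro x
    have hterm : ∀ j : Fin 3, pd j (fun y => F y j) x
        = pd j (pd j φ) x * φ x + (pd j φ x) ^ 2 := by
      intro j
      have : (fun y => F y j) = fun y => φ y * pd j φ y := rfl
      rw [this, pd_mul j φ (pd j φ) x (hφd x) (hpdd j x)]
      ring
    simp only [hterm]
    rw [Finset.sum_add_distrib, Finset.sum_mul]
  have hc1 : Continuous (fun x => (∑ j : Fin 3, pd j (pd j φ) x) * φ x) := by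
    apply Continuous.mul _ hφd.continuous
    apply continuous_finsetSum
    intro j _
    exact hpd2c j
  have hc2 : Continuous (fun x => ∑ j : Fin 3, (pd j φ x) ^ 2) := by
    apply continuous_finsetSum
    intro j _
    exact (hpdc j).pow 2
  have hc : Continuous (fun x => ∑ j : Fin 3, pd j (fun y => F y j) x) := by
    have : (fun x => ∑ j : Fin 3, pd j (fun y => F y j) x)
        = fun x => (∑ j : Fin 3, pd j (pd j φ) x) * φ x + ∑ j : Fin 3, (pd j φ x) ^ 2 :=
      funext hpoint
    rw [this]
    exact hc1.add hc2
  have key := integral_div_periodic F hF hFper hc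
  simp only [hpoint] at key
  rw [integral_add (hc1.continuousOn.integrableOn_compact isCompact_Icc)
    (hc2.continuousOn.integrableOn_compact isCompact_Icc)] at key
  linarith

/-- The Laplacian term in the energy identity is nonpositive. -/
theorem integral_laplacian_mul_nonpos (φ : R3 → ℝ) (hφ : ContDiff ℝ 2 φ) (hper : Per3 φ) :
    ∫ x in Set.Icc (0 : R3) 1, (∑ j : Fin 3, pd j (pd j φ) x) * φ x ≤ 0 := by
  rw [integral_laplacian_mul φ hφ hper, neg_nonpos]
  apply integral_nonneg
  intro x
  exact Finset.sum_nonneg fun j _ => sq_nonneg _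

end Vale.Agent.H99
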