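import Vale.Agent.H30.NS.Core

/-!
Auxiliary lemmas for the uniqueness of classical solutions on the torus: reduction to the unit
cube by periodicity, vanishing of a continuous field with zero energy, and determination of a
function by its gradient and its mean.
-/

namespace Vale.Agent.H99

open Vale.Agent.H30 MeasureTheory Set

/-- Every point of `R3` is an integer translate of a point of the unit cube. -/
theorem exists_cube_translate (x : R3) :
    ∃ y ∈ Set.Icc (0 : R3) 1, ∃ k : Fin 3 → ℤ, x = y + fun i => (k i : ℝ) := by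
  refine ⟨fun i => Int.fract (x i), ?_, fun i => ⌊x i⌋, ?_⟩
  · constructor
    · intro i
      exact Int.fract_nonneg (x i)
    · intro i
      exact (Int.fract_lt_one (x i)).le
  · funext i
    simp [Int.fract_add_floor]

/-- Two periodic functions that agree on the unit cube agree everywhere. -/
theorem Per3.eq_of_eqOn_cube {α : Type} {φ ψ : R3 → α} (hφ : Per3 φ) (hψ : Per3 ψ)
    (h : ∀ y ∈ Set.Icc (0 : R3) 1, φ y = ψ y) : ∀ x, φ x = ψ x := by
  intro x
  obtain ⟨y, hy, k, rfl⟩ := exists_cube_translate x
  rw [hφ y k, hψ y k]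
  exact h y hy

theorem cube_subset_closure_interior :
    Set.Icc (0 : R3) 1 ⊆ closure (interior (Set.Icc (0 : R3) 1)) := by
  have h1 : Set.Icc (0 : R3) 1 = Set.pi Set.univ (fun _ : Fin 3 => Set.Icc (0 : ℝ) 1) := by
    ext x
    simp [Set.mem_Icc, Pi.le_def]
  rw [h1, interior_pi_set Set.finite_univ, closure_pi_set]
  simp

/-- A continuous nonnegative function on the unit cube with zero integral vanishes on the cube. -/
theorem eqOn_cube_zero_of_integral_eq_zero (g : R3 → ℝ)
    (hg : ContinuousOn g (Set.Icc (0 : R3) 1)) (h0 : ∀ x ∈ Set.Icc (0 : R3) 1, 0 ≤ g x)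
    (h : ∫ x in Set.Icc (0 : R3) 1, g x = 0) : ∀ x ∈ Set.Icc (0 : R3) 1, g x = 0 := by
  have hint : IntegrableOn g (Set.Icc (0 : R3) 1) := hg.integrableOn_compact isCompact_Icc
  have hnn : 0 ≤ᵐ[volume.restrict (Set.Icc (0 : R3) 1)] g := by
    filter_upwards [ae_restrict_mem measurableSet_Icc] with x hx using h0 x hx
  have hae : g =ᵐ[volume.restrict (Set.Icc (0 : R3) 1)] 0 :=
    (setIntegral_eq_zero_iff_of_nonneg_ae hnn hint).1 h
  have := MeasureTheory.Measure.eqOn_of_ae_eq hae hg continuousOn_const
    cube_subset_closure_interior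
  intro x hx
  exact this hx

/-- A continuous periodic vector field whose energy over the unit cube is zero vanishes. -/
theorem eq_zero_of_integral_sq_eq_zero (w : R3 → R3) (hw : Continuous w) (hper : Per3 w)
    (h : ∫ x in Set.Icc (0 : R3) 1, ∑ i : Fin 3, (w x i) ^ 2 = 0) : ∀ x, w x = 0 := by
  have hcont : Continuous (fun x => ∑ i : Fin 3, (w x i) ^ 2) := by
    fun_prop
  have hz := eqOn_cube_zero_of_integral_eq_zero (fun x => ∑ i : Fin 3, (w x i) ^ 2)
    hcont.continuousOn (fun x _ => Finset.sum_nonneg fun i _ => sq_nonneg _) h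
  have hcube : ∀ y ∈ Set.Icc (0 : R3) 1, w y = (fun _ => 0 : R3 → R3) y := by
    intro y hy
    have hy0 := hz y hy
    have hall : ∀ i ∈ (Finset.univ : Finset (Fin 3)), (w y i) ^ 2 = 0 :=
      (Finset.sum_eq_zero_iff_of_nonneg fun i _ => sq_nonneg _).1 hy0
    funext i
    have := hall i (Finset.mem_univ i)
    simpa using this
  have hper0 : Per3 (fun _ => 0 : R3 → R3) := fun _ _ => rfl
  exact Per3.eq_of_eqOn_cube hper hper0 hcube

/-- A differentiable function all of whose partial derivatives vanish is constant. -/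
theorem const_of_pd_eq_zero (d : R3 → ℝ) (hd : Differentiable ℝ d)
    (hpd : ∀ (i : Fin 3) (x : R3), pd i d x = 0) : ∀ x y, d x = d y := by
  have hzero : ∀ x, fderiv ℝ d x = 0 := by
    intro x
    ext v
    have hv : v = ∑ i : Fin 3, v i • (Pi.single i (1 : ℝ) : R3) := by
      funext j
      simp [Finset.sum_apply, Pi.single_apply]
    rw [hv, map_sum]
    simp only [map_smul, zero_apply]
    apply Finset.sum_eq_zero
    intro i _
    have := hpd i x
    unfold pd at this
    rw [this, smul_zero]
  exact fun x y => is_const_of_fderiv_eq_zero hd hzero x y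

theorem volume_cube : volume (Set.Icc (0 : R3) 1) = 1 := by
  rw [Real.volume_Icc_pi]
  simp

/-- Two differentiable functions with the same partial derivatives and the same mean over the
unit cube are equal. -/
theorem eq_of_pd_eq_of_mean_eq (g h : R3 → ℝ) (hg : Differentiable ℝ g)
    (hh : Differentiable ℝ h) (hpd : ∀ (i : Fin 3) (x : R3), pd i g x = pd i h x)
    (hmean : ∫ x in Set.Icc (0 : R3) 1, g x = ∫ x in Set.Icc (0 : R3) 1, h x) :
    ∀ x, g x = h x := by
  have hd : Differentiable ℝ (fun x => g x - h x) := hg.sub hh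
  have hpd0 : ∀ (i : Fin 3) (x : R3), pd i (fun x => g x - h x) x = 0 := by
    intro i x
    unfold pd
    have : fderiv ℝ (fun x => g x - h x) x = fderiv ℝ g x - fderiv ℝ h x :=
      fderiv_fun_sub (hg x) (hh x)
    rw [this, sub_apply]
    have := hpd i x
    unfold pd at this
    rw [this, sub_self]
  have hconst := const_of_pd_eq_zero _ hd hpd0
  have hgi : IntegrableOn g (Set.Icc (0 : R3) 1) :=
    hg.continuous.continuousOn.integrableOn_compact isCompact_Icc
  have hhi : IntegrableOn h (Set.Icc (0 : R3) 1) :=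
    hh.continuous.continuousOn.integrableOn_compact isCompact_Icc
  have hint : ∫ x in Set.Icc (0 : R3) 1, (g x - h x) = 0 := by
    rw [integral_sub hgi hhi, hmean, sub_self]
  have hc : ∫ x in Set.Icc (0 : R3) 1, (g x - h x) = g 0 - h 0 := by
    have : ∀ x, g x - h x = g 0 - h 0 := fun x => hconst x 0
    simp only [this]
    rw [setIntegral_const]
    simp [Measure.real, volume_cube]
  intro x
  have h1 : g x - h x = g 0 - h 0 := hconst x 0
  have h2 : g 0 - h 0 = 0 := by rw [← hc, hint]
  linarith

end Vale.Agent.H99
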